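import Crest.Agent.X262.Dbl58.Emb
import Crest.Agent.X262.Blow.PB
import Crest.Agent.X262.Coh.Basic

/-!
# Row 262, DBL (helper58): the blow-up of a closed embedding, the blow-up of the diagonal

* `exc G`, `at_exc`, `isDv_exc` : the exceptional divisor as a smooth divisor;
* `exists_bl`  : the blow-up of the image of a closed embedding of positive codimension;
* `dbl_of`     : `PD → SUPD → DBL`.
-/

set_option autoImplicit false
set_option linter.unusedSectionVars false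

open WithZero
open scoped KaehlerDifferential

noncomputable section

namespace Crest.Agent.X262.Dbl58

open Crest.Agent.X277 Crest.Agent.X277.Lef Crest.Agent.X277.AN.G1 Crest.Agent.X277.BD
  Crest.Agent.X277.BD.Br Crest.Agent.X262.Blow Crest.Agent.X262.Coh

section Exc

variable {F κ K : Type} [Field F] [Field κ] [Field K] [Algebra ℂ F] [Algebra ℂ κ] [Algebra ℂ K]
  {q : Plc F κ} {p : Plc F K} {v : Valuation F ℤᵐ⁰} {P : PModel ℂ F} {c d : ℕ}

/-- the exceptional divisor -/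
def exc (G : Gens P q) : BD ℂ F := G.m • oP P - mxf ℂ G.f

variable {G : Gens P q} {h : SmC P q c d}

theorem at_exc {x' : Pts (G.bl h)} {i : Fin (P.N + 1)} {j : Fin (G.M + 1)}
    (hi : (G.r h).map x' ∈ pat P i) (hj : ∀ k, G.f k / G.f j ∈ (lp x').O) :
    At (exc G) x' (G.g i j)⁻¹ := by
  rw [inv_div]
  exact ((at_mxf (P.y_ne i) fun l => (Gens.r_dom x').le (y_mem hi l)).nsmul _).sub
    (at_mxf (G.ne j) hj)

theorem isDv_exc (hv : IsOrd q v) (hp : ExcP v p) {E : PModel ℂ K} (hE : Md p (G.bl h) E) :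
    IsDv (X := sv E) (Y := sv (G.bl h)) hE.mor (exc G) := by
  refine ⟨⟨hE.injective, fun e => (hE.ov e).surj⟩, fun y hy => ?_, fun e => ?_⟩
  · obtain ⟨i, hi⟩ := exists_pat ((G.r h).map y)
    obtain ⟨j, hj⟩ := Gens.exists_gen y
    refine (at_exc hi hj).of_ev' ?_
    rw [one_div, inv_inv]
    exact hv.ev_g_ne (fun h1 => hy (hE.mem_range.2 (hp.le_iff.2 h1))) hi hj
  · obtain ⟨i, hi⟩ := exists_pat ((G.r h).map (hE.mor.map e))
    obtain ⟨j, hj⟩ := Gens.exists_gen (hE.mor.map e)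
    have he := hv.eqn_g (hp.le_iff.1 (hE.ov e).le) hi hj
    exact ⟨_, he.mem, at_exc hi hj, fun f hf => (hp.eq_iff (he.loc.le f hf)).trans (he.lt_iff hf)⟩

end Exc

variable {X Y : SV}

theorem md_of_isEmb {i : Hom X Y} (h : IsEmb i) : Md i.p Y.P X.P :=
  ⟨fun z => ⟨_, Srj.ov h.2 z⟩, fun x hx => by
    obtain ⟨z, rfl⟩ := (le_iff_range i).1 hx
    exact ⟨z, Srj.ov h.2 z⟩⟩

theorem dim_le_of_isEmb {i : Hom X Y} (h : IsEmb i) : X.dim ≤ Y.dim :=
  Srj.le_dim h.2 (Module.finBasis _ _) (Module.finBasis _ _)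

/-- a closed embedding is a smooth centre -/
theorem exists_smC {i : Hom X Y} (h : IsEmb i) : ∃ i' : Hom X Y, i'.map = i.map ∧ IsEmb i' ∧
    SmC Y.P i'.p (Y.dim - X.dim) X.dim := by
  obtain ⟨z⟩ : Nonempty X.Pt := inferInstance
  have h1 := dim_le_of_isEmb h
  exact ⟨locM i z, locM_map i z, ⟨(locM_map i z).symm ▸ h.1, Srj.locM z h.2⟩,
    smC (Srj.locM z h.2) (lcl_locM i z) (Module.finBasis _ _) (Module.finBasis _ _)
      (Nat.sub_add_cancel h1)⟩

/-- **the blow-up of a smooth subvariety** -/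
theorem exists_bl {i : Hom X Y} (h : IsEmb i) (hd : X.dim < Y.dim) :
    ∃ (B : PModel ℂ Y.F) (E : SV) (b : Hom (sv B) Y) (j : Hom E (sv B)) (π : Hom E X)
      (a : BD ℂ Y.F), b.p = Plc.ofHom (AlgHom.id ℂ Y.F) ∧ IsDv j a ∧
      (∀ y, b.map y ∈ Set.range i.map ↔ y ∈ Set.range j.map) ∧
      (∀ y, b.map y ∉ Set.range i.map → lp (b.map y) = lp y) ∧
      (Mor.comp b j).map = (Mor.comp i π).map := by
  obtain ⟨i', h1, h2, h3⟩ := exists_smC h
  have hc : 0 < Y.dim - X.dim := by omega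
  obtain ⟨G⟩ := h3.exists_gens hc
  obtain ⟨v, hv⟩ := h3.exists_ord hc
  obtain ⟨K, _, _, p, hp⟩ := exists_excP hv.triv
  obtain ⟨E, hE⟩ : ∃ E : PModel ℂ K, Md p (G.bl h3) E :=
    ⟨_, (smC_exc G h3 hv hp hc (d' := Y.dim - 1) (by omega)).md⟩
  refine ⟨G.bl h3, sv E, G.r h3, hE.mor, prj hv hp hE (md_of_isEmb h2), exc G, rfl,
    isDv_exc hv hp hE, fun y => ?_, fun y hy => Gens.lp_off ?_, funext fun e => ?_⟩
  · rw [← h1, ← le_iff_range, ← hv.on_bl, hE.mem_range, hp.le_iff]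
  · rwa [le_iff_range, h1]
  · rw [Mor.comp_map, Mor.comp_map, ← h1]
    exact (prj_comm hv hp hE (md_of_isEmb h2) e).symm

theorem isEmb_dia (Y : SV) : IsEmb (dia Y) := ⟨dg_injective _, srj_dg _⟩

theorem dim_prod (X Y : SV) : (X.prod Y).dim = X.dim + Y.dim := by
  simpa using Module.finrank_eq_card_basis (Cns.pfBasis
    (Crest.Agent.R274.Prod1_134.isPF ℂ X.F Y.F) (Module.finBasis _ _) (Module.finBasis _ _))

/-- **the total transform of the diagonal** -/
theorem dbl_of {C : Th} (hP : C.PD) (hS : C.SUPD) : C.DBL := by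
  intro Y hY
  obtain ⟨B, E, b, j, -, a, h1, h2, h3, -⟩ := exists_bl (isEmb_dia Y) (by rw [dim_prod]; omega)
  obtain ⟨γ, hγ⟩ := hP.mem_range_push (μ := j) (b := C.pb b (C.push (dia Y) 1)) fun y hy => by
    rw [mul_comm]
    exact hS b j h2.emb (fun y => (h3 y).1) y hy
  exact ⟨sv B, E, b, j, a, ⟨_, h1, Function.surjective_id⟩, h2, h3, γ, hγ.symm⟩

end Crest.Agent.X262.Dbl58
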