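import Crest.Agent.X262.Blow.Mod
import Crest.Agent.X277.Cns.Prod
import Crest.Agent.X277.Cns.Jac

/-!
# Row 262, DBL (helper58), part Emb: closed embeddings are smooth centres

* `le_iff_range` : the centre of `j.p` is the image of `j`;
* `ad_of`        : the kernel of `O_x → O_z` is generated by the normal coordinates;
* `exists_ad'`   : adapted coordinates for a surjection `O_x → O_z`;
* `Srj j`, `Lcl j`, `smC`, `locM` : a closed embedding is a smooth centre;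
* `dg h P`, `ad_dg`, `smC_dg` : the diagonal.
-/

set_option autoImplicit false
set_option linter.unusedSectionVars false

open MvPolynomial
open scoped KaehlerDifferential

noncomputable section

namespace Crest.Agent.X262.Dbl58

open Crest.Agent.X277 Crest.Agent.X277.Lef Crest.Agent.X277.Res.Out Crest.Agent.X277.AN.G1
  Crest.Agent.X277.Res.Log Crest.Agent.X277.Strat.Fac Crest.Agent.X262.Blow

variable {F κ : Type} [Field F] [Field κ] [Algebra ℂ F] [Algebra ℂ κ]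

/-! ### the differential at a point -/

section Cot

variable {L : LP F} {n : ℕ} {t : Fin n → F} (h : Coords L.O t)

/-- the differential at the closed point -/
def dv : L.O →ₗ[ℂ] (Fin n → ℂ) :=
  LinearMap.pi fun l => L.hom.toLinearMap ∘ₗ
    (resDer L.O (h.der.choose l) (h.der.choose_spec.1 l)).toLinearMap

theorem dv_apply (f : L.O) (l : Fin n) : dv h f l = L.v (h.der.choose l f) := rfl

theorem dv_el (l : Fin n) : dv h (h.el l) = Pi.single l 1 := by
  funext j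
  rw [dv_apply, Pi.single_apply]
  change L.v (h.der.choose j (t l)) = _
  rw [h.der.choose_spec.2]
  split_ifs <;> simp

theorem dv_mul (f g : L.O) : dv h (f * g) = L.v f • dv h g + L.v g • dv h f := by
  funext l
  have h1 := h.der.choose_spec.1 l
  rw [dv_apply, Subalgebra.coe_mul, Derivation.leibniz, smul_eq_mul, smul_eq_mul,
    L.v_add (mul_mem f.2 (h1 _ g.2)) (mul_mem g.2 (h1 _ f.2)), L.v_mul f.2 (h1 _ g.2),
    L.v_mul g.2 (h1 _ f.2)]
  rfl

theorem el_mem (l : Fin n) : h.el l ∈ L.mx := v_coord h l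

theorem exists_sum {f : L.O} (hf : f ∈ L.mx) : ∃ r : Fin n → L.O, f = ∑ l, r l * h.el l := by
  obtain ⟨r, hr, h1⟩ := h.gen f (van_iff_v.2 ⟨f.2, hf⟩)
  exact ⟨fun l => ⟨r l, hr l⟩, Subtype.ext (by rw [h1, AddSubmonoidClass.coe_finsetSum]; rfl)⟩

theorem dv_eq_zero_iff {f : L.O} (hf : f ∈ L.mx) : dv h f = 0 ↔ f ∈ L.mx * L.mx := by
  constructor
  · intro h0
    obtain ⟨r, rfl⟩ := exists_sum h hf
    refine Ideal.sum_mem _ fun l _ => Ideal.mul_mem_mul ?_ (el_mem h l)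
    have h1 := congrFun h0 l
    have h2 : ∀ j, L.v (h.el j) = 0 := el_mem h
    rw [LP.mem_mx]
    simpa [map_sum, dv_mul, dv_el, h2, Pi.single_apply] using h1
  · intro h0
    refine Submodule.mul_induction_on h0 (fun a ha b hb => ?_) fun a b ha hb => ?_
    · rw [dv_mul, (L.mem_mx).1 ha, (L.mem_mx).1 hb, zero_smul, zero_smul, add_zero]
    · rw [map_add, ha, hb, add_zero]

theorem exists_compl {d : ℕ} {K W : Submodule ℂ (Fin n → ℂ)} (h1 : K ⊓ W = ⊥) (h2 : K ⊔ W = ⊤)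
    (hW : Module.finrank ℂ W = d) : ∃ c, c + d = n ∧ ∃ v : Fin c → Fin n → ℂ, (∀ l, v l ∈ K) ∧
      K ≤ Submodule.span ℂ (Set.range v) := by
  have h4 := Submodule.finrank_sup_add_finrank_inf_eq K W
  rw [h1, h2, hW, finrank_top, finrank_bot, Module.finrank_fin_fun, add_zero, eq_comm] at h4
  let b := Module.finBasis ℂ K
  refine ⟨_, h4, fun l => b l, fun l => (b l).2, fun k hk => ?_⟩
  have h5 := congrArg Subtype.val (b.sum_repr ⟨k, hk⟩)
  rw [← (show _ = k from h5), AddSubmonoidClass.coe_finsetSum]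
  exact Submodule.sum_mem _ fun l _ => Submodule.smul_mem _ _ (Submodule.subset_span ⟨l, rfl⟩)

end Cot

variable {P : PModel ℂ F} {Z : PModel ℂ κ} {q : Plc F κ} {c d n : ℕ} {x : Pts P} {z : Pts Z}

/-! ### adapted coordinates -/

/-- the place is a local homomorphism `O_x → O_z` -/
structure Lh (q : Plc F κ) (z : Pts Z) (x : Pts P) : Prop where
  le : (lp x).O ≤ q.O
  mem : ∀ f ∈ (lp x).O, q.π f ∈ (lp z).O
  ev_eq : ∀ f ∈ (lp x).O, ev (q.π f) z = ev f x

/-- the local homomorphism -/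
def Lh.ρ (h : Lh q z x) : (lp x).O →ₐ[ℂ] (lp z).O :=
  (q.hom.comp (Subalgebra.inclusion h.le)).codRestrict _ fun f => h.mem f f.2

theorem Lh.coe_ρ (h : Lh q z x) (f : (lp x).O) : (h.ρ f : κ) = q.π f := rfl

theorem Lh.ρ_mem (h : Lh q z x) {f : (lp x).O} : h.ρ f ∈ (lp z).mx ↔ f ∈ (lp x).mx :=
  Eq.congr_left (h.ev_eq f f.2)

theorem lh_map (j : Mor Z P) (z : Pts Z) : Lh j.p z (j.map z) :=
  ⟨fun _ hf => j.mem_O hf, fun _ hf => j.π_mem hf, fun _ hf => (j.ev_map hf).symm⟩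

theorem inI_iff {ι : Type} [Fintype ι] {O : Subalgebra ℂ F} {s : ι → O} {a : O} :
    InI O (fun l => (s l : F)) a ↔ a ∈ Ideal.span (Set.range s) := by
  rw [Ideal.mem_span_range_iff_exists_fun]
  exact ⟨fun ⟨r, hr, h⟩ => ⟨fun l => ⟨r l, hr l⟩, Subtype.ext (by
      rw [h, AddSubmonoidClass.coe_finsetSum]; rfl)⟩,
    fun ⟨r, h⟩ => ⟨fun l => r l, fun l => (r l).2, by
      rw [← h, AddSubmonoidClass.coe_finsetSum]; rfl⟩⟩

/-- **the kernel is generated by the normal coordinates** -/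
theorem ad_of (h : Lh q z x) {s : Fin c → F} {w : Fin d → F}
    (hc : CoI (lp x).O (Sum.elim s w)) (hs : ∀ l, q.π (s l) = 0)
    (hu : Dual (lp z).O fun m => q.π (w m)) : Ad q x s w := by
  let s' : Fin c → (lp x).O := fun l => ⟨s l, hc.mem (Sum.inl l)⟩
  let w' : Fin d → (lp x).O := fun m => ⟨w m, hc.mem (Sum.inr m)⟩
  have hJ : ∀ a ∈ Ideal.span (Set.range s'), h.ρ a = 0 := fun a ha => Subtype.ext
    (((inI_iff.2 ha).mono h.le).π_eq (fun l => h.le (s' l).2) hs)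
  have hm : (lp x).mx ≤ Ideal.span (Set.range s') ⊔ Ideal.span (Set.range w') := by
    intro a ha
    obtain ⟨r, hr, h1⟩ := hc.gen a (van_iff_v.2 ⟨a.2, ha⟩)
    rw [Fintype.sum_sum_type] at h1
    refine Submodule.mem_sup.2 ⟨∑ l, ⟨_, hr (Sum.inl l)⟩ * s' l,
      Ideal.sum_mem _ fun l _ => Ideal.mul_mem_left _ _ (Ideal.subset_span ⟨l, rfl⟩),
      ∑ l, ⟨_, hr (Sum.inr l)⟩ * w' l,
      Ideal.sum_mem _ fun l _ => Ideal.mul_mem_left _ _ (Ideal.subset_span ⟨l, rfl⟩),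
      Subtype.ext ?_⟩
    rw [h1, Subalgebra.coe_add, AddSubmonoidClass.coe_finsetSum, AddSubmonoidClass.coe_finsetSum]
    rfl
  have hw : ∀ m, hu.el m ∈ (lp z).mx := fun m => (h.ρ_mem (f := w' m)).2 (hc.v_eq (Sum.inr m))
  have key : ∀ a, h.ρ a = 0 → ∀ N,
      a ∈ Ideal.span (Set.range s') ⊔ Ideal.span (Set.range w') ^ N := by
    intro a ha N
    induction N with
    | zero => rw [pow_zero, Ideal.one_eq_top, sup_top_eq]; trivial
    | succ N ih =>
      obtain ⟨a', ha', b, hb, rfl⟩ := Submodule.mem_sup.1 ih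
      obtain ⟨H, hH, rfl⟩ := (Ideal.mem_span_pow_iff_exists_isHomogeneous w' b).1 hb
      rw [map_add, hJ a' ha', zero_add] at ha
      have h1 : eval hu.el (map (h.ρ : (lp x).O →+* (lp z).O) H) = 0 := by
        rw [← ha, eval_map, ← coe_eval₂Hom]
        exact ((map_eval₂Hom (RingHom.id _) w' (h.ρ : (lp x).O →+* (lp z).O) H).trans rfl).symm
      have h2 := hu.map_eq_zero (lp z).hom hw (hH.map _) (h1 ▸ zero_mem _)
      refine add_mem (Ideal.mem_sup_left ha') (Res.P0.eval_mem_of_map_eq_zero _ _ _ hm hH ?_)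
      ext m
      have h3 := congrArg (coeff m) h2
      rw [coeff_map, coeff_map, coeff_zero] at h3
      rw [coeff_map, coeff_zero, Ideal.Quotient.eq_zero_iff_mem]
      exact h.ρ_mem.1 h3
  refine ⟨h.le, hc, fun a ha => ⟨fun h0 => (inI_iff (s := s') (a := ⟨a, ha⟩)).2 ?_,
    fun h0 => (h0.mono h.le).π_eq (fun l => h.le (s' l).2) hs⟩⟩
  refine mem_of_forall_sup_pow (m := Ideal.span (Set.range w')) (fun h1 => ?_)
    (key _ (Subtype.ext h0))
  have h2 : Ideal.span (Set.range w') ≤ (lp x).mx :=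
    Ideal.span_le.2 (by rintro _ ⟨m, rfl⟩; exact hc.v_eq (Sum.inr m))
  exact one_ne_zero ((lp x).v_one.symm.trans (h2 (h1 ▸ Submodule.mem_top : (1 : (lp x).O) ∈ _)))

/-- a family which generates the maximal ideal modulo its square -/
theorem coI_of_span {ι : Type} [Fintype ι] [DecidableEq ι] {t : Fin n → F}
    (ht : Coords (lp x).O t) (e : Fin n ≃ ι) {v : ι → (lp x).O} (h0 : ∀ l, v l ∈ (lp x).mx)
    (h1 : ⊤ ≤ Submodule.span ℂ (Set.range fun l => dv ht (v l))) :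
    CoI (lp x).O fun l => (v l : F) := by
  have h2 : Ideal.span (Set.range v) ≤ (lp x).mx :=
    Ideal.span_le.2 (by rintro _ ⟨l, rfl⟩; exact h0 l)
  have h3 : (lp x).mx ≤ Ideal.span (Set.range v) := by
    refine Submodule.le_of_le_smul_of_le_jacobson_bot (I := (lp x).mx)
      (IsNoetherian.noetherian _) ?_ fun f hf => ?_
    · rw [← LP.maximalIdeal_eq]
      exact IsLocalRing.maximalIdeal_le_jacobson _
    · obtain ⟨a, ha⟩ := (Submodule.mem_span_range_iff_exists_fun ℂ).1 (h1 (Submodule.mem_top :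
        dv ht f ∈ _))
      have h4 : ∑ l, a l • v l ∈ Ideal.span (Set.range v) := Ideal.sum_mem _ fun l _ =>
        Submodule.smul_of_tower_mem _ _ (Ideal.subset_span ⟨l, rfl⟩)
      refine Submodule.mem_sup.2 ⟨_, h4, f - ∑ l, a l • v l, ?_, add_sub_cancel _ _⟩
      refine (dv_eq_zero_iff ht (sub_mem hf (h2 h4))).1 ?_
      simp only [map_sub, map_sum, map_smul, ha, sub_self]
  obtain ⟨b⟩ := basis_of_coords ht
  have h4 : Coords (lp x).O fun l => (v (e l) : F) := by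
    refine coords_of_crd b ⟨fun l => (v _).2, fun f hf => ?_⟩ fun l => h0 _
    obtain ⟨r, hr, h5⟩ := inI_iff.2 (h3 (show (⟨f - algebraMap ℂ F ((lp x).v f),
      sub_mem hf (algebraMap_mem _ _)⟩ : (lp x).O) ∈ (lp x).mx from LP.v_sub_v hf))
    have h6 : ∀ l, (lp x).v (v l) = 0 := h0
    refine ⟨fun l => r (e l), fun l => hr _, ?_⟩
    simp only [h6, map_zero, sub_zero]
    rw [e.sum_comp fun l => r l * v l, ← h5]
    exact (add_sub_cancel _ _).symm
  simpa using (coI_iff.2 h4).reindex e.symm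

/-- **adapted coordinates** -/
theorem exists_ad' (h : Ov q z x) {t : Fin n → F} (ht : Coords (lp x).O t) {u : Fin d → κ}
    (hu : Coords (lp z).O u) : ∃ c, c + d = n ∧ ∃ (s : Fin c → F) (w : Fin d → F), Ad q x s w := by
  have h' : Lh q z x := ⟨h.le, h.mem, h.ev_eq⟩
  have hρ : Function.Surjective h'.ρ := fun g => by
    obtain ⟨f, hf, h1⟩ := h.surj g g.2
    exact ⟨⟨f, hf⟩, Subtype.ext h1⟩
  choose w hw using fun m => hρ (hu.el m)
  have hw0 : ∀ m, w m ∈ (lp x).mx := fun m => h'.ρ_mem.1 (hw m ▸ el_mem hu m)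
  let K : Submodule ℂ (Fin n → ℂ) := (LinearMap.ker h'.ρ.toLinearMap).map (dv ht)
  let W : Submodule ℂ (Fin n → ℂ) := Submodule.span ℂ (Set.range fun m => dv ht (w m))
  have key : ∀ a, h'.ρ a = 0 → ∀ e : Fin d → ℂ, ∑ m, e m • dv ht (w m) = dv ht a → e = 0 := by
    intro a ha e he
    have h1 : ∑ m, e m • w m - a ∈ (lp x).mx := sub_mem
      (Ideal.sum_mem _ fun m _ => Submodule.smul_of_tower_mem _ _ (hw0 m))
      (h'.ρ_mem.1 (ha ▸ zero_mem _))
    have h2 := Ideal.mem_map_of_mem h'.ρ ((dv_eq_zero_iff ht h1).1 (by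
      simp only [map_sub, map_sum, map_smul, he, sub_self]))
    have h3 : Ideal.map h'.ρ (lp x).mx ≤ (lp z).mx :=
      Ideal.map_le_iff_le_comap.2 fun f hf => h'.ρ_mem.2 hf
    rw [Ideal.map_mul] at h2
    have h4 := (dv_eq_zero_iff hu (h'.ρ_mem.2 h1)).2 (Ideal.mul_mono h3 h3 h2)
    funext m
    simpa [map_sub, map_sum, ha, hw, dv_el, Pi.single_apply] using congrFun h4 m
  have hW : Module.finrank ℂ W = d := by
    rw [finrank_span_eq_card (Fintype.linearIndependent_iff.2 fun e he m =>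
      congrFun (key 0 (map_zero _) e (by rw [he, map_zero])) m), Fintype.card_fin]
  have h1 : K ⊓ W = ⊥ := by
    rw [eq_bot_iff]
    rintro _ ⟨⟨a, ha, rfl⟩, h2⟩
    obtain ⟨e, he⟩ := (Submodule.mem_span_range_iff_exists_fun ℂ).1 h2
    rw [← he, key a ha e he]
    simp
  have h2 : K ⊔ W = ⊤ := by
    rw [eq_top_iff, ← (Pi.basisFun ℂ (Fin n)).span_eq, Submodule.span_le]
    rintro _ ⟨l, rfl⟩
    obtain ⟨r, hr⟩ := exists_sum hu (h'.ρ_mem.2 (el_mem ht l))
    choose r' hr' using fun m => hρ (r m)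
    have h3 : ∀ m, (lp x).v (w m) = 0 := hw0
    refine Submodule.mem_sup.2 ⟨_, ⟨ht.el l - ∑ m, r' m * w m, ?_, rfl⟩,
      dv ht (∑ m, r' m * w m), ?_, ?_⟩
    · simp [hr, hr', hw]
    · rw [map_sum]
      refine Submodule.sum_mem _ fun m _ => ?_
      rw [dv_mul, h3, zero_smul, add_zero]
      exact Submodule.smul_mem _ _ (Submodule.subset_span ⟨m, rfl⟩)
    · rw [← map_add, sub_add_cancel, dv_el, Pi.basisFun_apply]
  obtain ⟨c, h3, b, hb, hb'⟩ := exists_compl h1 h2 hW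
  choose s hs hs' using hb
  have h4 := coI_of_span ht ((finCongr h3.symm).trans finSumFinEquiv.symm) (v := Sum.elim s w)
    (fun l => by
      rcases l with l | l
      exacts [h'.ρ_mem.1 ((show h'.ρ (s l) = 0 from hs l) ▸ zero_mem _), hw0 l]) (by
      rw [← h2]
      refine sup_le (hb'.trans (Submodule.span_mono ?_)) (Submodule.span_mono ?_)
      · rintro _ ⟨m, rfl⟩
        exact ⟨Sum.inl m, hs' m⟩
      · rintro _ ⟨m, rfl⟩
        exact ⟨Sum.inr m, rfl⟩)
  refine ⟨_, h3, fun l => s l, fun m => w m, ad_of h' ?_ (fun l => congrArg Subtype.val (hs l)) ?_⟩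
  · convert h4 using 1
    funext l
    rcases l with l | l <;> rfl
  · have h5 : (fun m => q.π (w m)) = u := funext fun m => congrArg Subtype.val (hw m)
    rw [h5]
    exact ⟨hu.mem, by simpa using hu.der⟩

/-! ### embeddings -/

variable (j : Mor Z P)

/-- **the centre of the place of a morphism is its image** -/
theorem le_iff_range : (lp x).O ≤ j.p.O ↔ x ∈ Set.range j.map := by
  refine ⟨fun hx => ?_, by rintro ⟨z, rfl⟩; exact (lh_map j z).le⟩
  have : (lp x).mx.IsPrime := RingHom.ker_isPrime _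
  obtain ⟨V, h1, h2⟩ := Cns.exists_val
    (j.p.hom.comp (Subalgebra.inclusion hx) : (lp x).O →+* κ) (lp x).mx
    fun a ha => ev_eq_zero hx ha
  have h3 : ∀ f ∈ (lp x).O, Cns.Un V (j.p.π f) → ev f x ≠ 0 := fun f hf => (h2 ⟨f, hf⟩).1
  obtain ⟨z, hz⟩ := Cns.exists_ov Z (V := V) fun r => by
    have h4 := h1 (algebraMap ℂ _ r)
    rwa [RingHom.coe_coe, AlgHom.commutes] at h4
  obtain ⟨i, hi⟩ := exists_pat (j.map z)
  obtain ⟨i', hi'⟩ := exists_pat x
  have h4 : j.p.π (P.y i / P.y i') * j.p.π (P.y i' / P.y i) = 1 := by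
    rw [← j.p.π_mul (hx (y_mem hi' i)) (j.mem_O (y_mem hi i')),
      div_mul_div_cancel₀ (P.y_ne i'), div_self (P.y_ne i), Plc.π_one]
  have h5 : x ∈ pat P i := (mem_pat_iff hi').2 (h3 _ (y_mem hi' i)
    ⟨left_ne_zero_of_mul_eq_one h4, h1 ⟨_, y_mem hi' i⟩,
      eq_inv_of_mul_eq_one_right h4 ▸ hz _ (j.π_mem (y_mem hi i'))⟩)
  refine ⟨z, pt_ext hi h5 fun k => ?_⟩
  by_contra hne
  refine h3 (P.y k / P.y i - algebraMap ℂ F (ev (P.y k / P.y i) x))
    (sub_mem (y_mem h5 k) (algebraMap_mem _ _)) (hz.un ?_) (LP.v_sub_v (y_mem h5 k))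
  rw [← j.ev_map (sub_mem (y_mem hi k) (algebraMap_mem _ _))]
  unfold ev
  rw [LP.v_sub (y_mem hi k) (algebraMap_mem _ _), LP.v_alg]
  exact sub_ne_zero.2 hne

/-- surjective on the local rings -/
def Srj : Prop := ∀ z : Pts Z, ∀ g ∈ (lp z).O, ∃ f ∈ (lp (j.map z)).O, j.p.π f = g

/-- the ring of the place is the local ring of the image -/
def Lcl : Prop := ∃ z : Pts Z, ∀ f ∈ j.p.O,
  ∃ a ∈ (lp (j.map z)).O, ∃ c ∈ (lp (j.map z)).O, j.p.π c ≠ 0 ∧ f * c = a

variable {j}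

theorem Srj.ov (h : Srj j) (z : Pts Z) : Ov j.p z (j.map z) :=
  ⟨(lh_map j z).le, (lh_map j z).mem, (lh_map j z).ev_eq, h z⟩

theorem Srj.le_dim (h : Srj j) (b : Module.Basis (Fin n) F Ω[F⁄ℂ])
    (b' : Module.Basis (Fin d) κ Ω[κ⁄ℂ]) : d ≤ n := by
  obtain ⟨z⟩ : Nonempty (Pts Z) := inferInstance
  obtain ⟨t, ht⟩ := exists_coords_of_basis b (j.map z)
  obtain ⟨u, hu⟩ := exists_coords_of_basis b' z
  obtain ⟨c, hc, -⟩ := exists_ad' (h.ov z) ht hu
  omega

/-- **a closed embedding is a smooth centre** -/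
theorem smC (h : Srj j) (hl : Lcl j) (b : Module.Basis (Fin n) F Ω[F⁄ℂ])
    (b' : Module.Basis (Fin d) κ Ω[κ⁄ℂ]) (hc : c + d = n) : SmC P j.p c d := by
  obtain ⟨z₀, h₀⟩ := hl
  have h1 := (lh_map j z₀).le
  refine ⟨fun g => ?_, ⟨_, h1⟩, loc_of_one h1 h₀, fun x hx => ?_⟩
  · obtain ⟨a, ha, e, he, h2, rfl⟩ := frac_lp z₀ g
    obtain ⟨a', ha', rfl⟩ := h z₀ a ha
    obtain ⟨e', -, rfl⟩ := h z₀ e he
    exact ⟨_, Plc.div_mem (h1 ha') h2, Plc.π_div (h1 ha') h2⟩
  · obtain ⟨z, rfl⟩ := (le_iff_range j).1 hx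
    obtain ⟨t, ht⟩ := exists_coords_of_basis b (j.map z)
    obtain ⟨u, hu⟩ := exists_coords_of_basis b' z
    obtain ⟨c', hc', h2⟩ := exists_ad' (h.ov z) ht hu
    obtain rfl : c' = c := by omega
    exact h2

variable (j) (z₀ : Pts Z)

/-- the localised place -/
def locP : Plc F κ := plcAt (j.p.hom.comp (Subalgebra.inclusion (lh_map j z₀).le))

theorem mem_locP {f : F} (hf : f ∈ (lp (j.map z)).O) :
    f ∈ (locP j z₀).O ∧ (locP j z₀).π f = j.p.π f := by
  have h₀ := (lh_map j z₀).le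
  obtain ⟨a, ha, e, he, h1, h2⟩ := two_pt (lh_map j z).le h₀ hf
  have h3 : f ∈ (locP j z₀).O := ⟨⟨a, ha⟩, ⟨e, he⟩, un_plc.1 h1, h2⟩
  have h4 : ∀ a ∈ (lp (j.map z₀)).O, (locP j z₀).π a = j.p.π a := fun a ha => plcAt_π _ ⟨a, ha⟩
  refine ⟨h3, mul_right_cancel₀ (un_plc.1 h1) ?_⟩
  rw [← j.p.π_mul (j.mem_O hf) (h₀ he), h2, ← h4 e he, ← h4 a ha,
    ← (locP j z₀).π_mul h3 (le_plcAt _ he), h2]

/-- the same morphism, with the local ring of the image as the ring of its place -/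
def locM : Mor Z P where
  p := locP j z₀
  reg z := by
    obtain ⟨i, hi⟩ := exists_pat (j.map z)
    exact ⟨i, fun k => ⟨(mem_locP j z₀ (y_mem hi k)).1,
      (mem_locP j z₀ (y_mem hi k)).2 ▸ j.π_mem (y_mem hi k)⟩⟩

theorem locM_p : (locM j z₀).p = locP j z₀ := rfl

theorem locM_map : (locM j z₀).map = j.map := funext fun z => (locM j z₀).map_eq
  ⟨fun f hf => ⟨(mem_locP j z₀ hf).1, (mem_locP j z₀ hf).2 ▸ j.π_mem hf⟩, fun f hf => by
    rw [LP.comap_v, locM_p, (mem_locP j z₀ hf).2]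
    exact (j.ev_map hf).symm⟩

theorem lcl_locM : Lcl (locM j z₀) := ⟨z₀, fun f ⟨a, e, h1, h2⟩ => by
  rw [locM_map]
  exact ⟨a, a.2, e, e.2, by rwa [locM_p, (mem_locP j z₀ e.2).2], h2⟩⟩

variable {j} in
theorem Srj.locM (h : Srj j) : Srj (locM j z₀) := fun z g hg => by
  obtain ⟨f, hf, rfl⟩ := h z g hg
  rw [locM_map]
  exact ⟨f, hf, (mem_locP j z₀ hf).2⟩

/-! ### the diagonal -/

section Dia

open Crest.Agent.X277.Cns Crest.Agent.R274.Prod1_134 Crest.Agent.R274.Prod4_134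

variable {E : Type} [Field E] [Algebra ℂ E] {α β : F →ₐ[ℂ] E} (h : IsPF α β) (P : PModel ℂ F)

/-- the diagonal -/
abbrev dg : Mor P (prod P P h) := pair h (idM P) (idM P)

variable {P}

theorem dg_map (x : Pts P) : (dg h P).map x = mk h x x := by rw [pair_map, idM_map]

theorem dg_α (a : F) : α a ∈ (dg h P).p.O ∧ (dg h P).p.π (α a) = a :=
  plcP_left h _ Algebra.mem_top

theorem dg_β (a : F) : β a ∈ (dg h P).p.O ∧ (dg h P).p.π (β a) = a :=
  plcP_right h _ Algebra.mem_top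

theorem α_mem_mk {x x' : Pts P} {a : F} (ha : a ∈ (lp x).O) : α a ∈ (lp (mk h x x')).O := by
  simpa using mem_mk h ha (one_mem (lp x').O)

theorem β_mem_mk {x x' : Pts P} {a : F} (ha : a ∈ (lp x').O) : β a ∈ (lp (mk h x x')).O := by
  simpa using mem_mk h (one_mem (lp x).O) ha

theorem dg_injective : Function.Injective (dg h P).map := fun x x' hx => by
  simpa [dg_map] using congrArg (fst P P h).map hx

theorem le_dg_iff {x x' : Pts P} : (lp (mk h x x')).O ≤ (dg h P).p.O ↔ x = x' := by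
  rw [le_iff_range]
  refine ⟨fun ⟨y, hy⟩ => ?_, by rintro rfl; exact ⟨x, dg_map h x⟩⟩
  have h1 := congrArg (fst P P h).map hy
  have h2 := congrArg (snd P P h).map hy
  rw [dg_map, fst_mk, fst_mk] at h1
  rw [dg_map, snd_mk, snd_mk] at h2
  exact h1.symm.trans h2

theorem srj_dg : Srj (dg h P) := fun x g hg =>
  ⟨α g, dg_map h x ▸ α_mem_mk h hg, (dg_α h g).2⟩

theorem lcl_dg : Lcl (dg h P) := by
  obtain ⟨x⟩ : Nonempty (Pts P) := inferInstance
  have h1 := (lh_map (dg h P) x).le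
  let W : Subalgebra ℂ E := (locP (dg h P) x).O
  have h2 : ∀ γ : F →ₐ[ℂ] E, (∀ a ∈ (lp x).O, γ a ∈ (lp ((dg h P).map x)).O) →
      (∀ a, (dg h P).p.π (γ a) = a) → ∀ g, γ g ∈ W := fun γ h3 h4 g => by
    obtain ⟨a, ha, e, he, h5, rfl⟩ := frac_lp x g
    exact ⟨⟨_, h3 a ha⟩, ⟨_, h3 e he⟩, (h4 e).trans_ne h5, by
      rw [← map_mul, div_mul_cancel₀ _ h5]⟩
  have h3 : pr α β ⊤ ⊤ ≤ W := pr_le
    (fun a _ => h2 α (fun a ha => dg_map h x ▸ α_mem_mk h ha) (fun a => (dg_α h a).2) a)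
    (fun a _ => h2 β (fun a ha => dg_map h x ▸ β_mem_mk h ha) (fun a => (dg_β h a).2) a)
  refine ⟨x, fun f ⟨a, e, h4, h5⟩ => ?_⟩
  obtain ⟨a₁, e₁, h6, h7⟩ := h3 a.2
  obtain ⟨a₂, e₂, h8, h9⟩ := h3 e.2
  refine ⟨a₁ * e₂, mul_mem a₁.2 e₂.2, a₂ * e₁, mul_mem a₂.2 e₁.2, ?_, ?_⟩
  · rw [Plc.π_mul _ (h1 a₂.2) (h1 e₁.2), ← h9,
      (dg h P).p.π_mul (le_plcAt _ e.2) (h1 e₂.2)]
    exact mul_ne_zero (mul_ne_zero ((plcAt_π _ e).trans_ne h4) h8) h6
  · rw [← h7, ← h9, ← h5]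
    ring

/-- **the diagonal is a smooth centre** -/
theorem smC_dg (b : Module.Basis (Fin n) F Ω[F⁄ℂ]) : SmC (prod P P h) (dg h P).p n n :=
  smC (srj_dg h) (lcl_dg h) (pfBasis h b b) b rfl

theorem coI_mk {x x' : Pts P} {t t' : Fin n → F} (ht : Coords (lp x).O t)
    (ht' : Coords (lp x').O t') :
    CoI (lp (mk h x x')).O (Sum.elim (fun l => α (t l)) fun l => β (t' l)) := by
  obtain ⟨b⟩ := basis_of_coords ht
  have h1 := coords_of_crd (pfBasis h b b) (crd_mk h (crd_of_coords ht) (crd_of_coords ht'))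
    fun l => by
      refine Fin.addCases (fun l => ?_) (fun l => ?_) l
      · rw [Fin.append_left]
        simpa [ev, v_coord ht] using ev_mk h (ht.mem l) (one_mem (lp x').O)
      · rw [Fin.append_right]
        simpa [ev, v_coord ht'] using ev_mk h (one_mem (lp x).O) (ht'.mem l)
  convert (coI_iff.2 h1).reindex finSumFinEquiv using 1
  funext l
  rcases l with l | l
  · rw [finSumFinEquiv_apply_left, Fin.append_left, Sum.elim_inl]
  · rw [finSumFinEquiv_apply_right, Fin.append_right, Sum.elim_inr]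

/-- **adapted coordinates along the diagonal** -/
theorem ad_dg {x : Pts P} {t : Fin n → F} (ht : Coords (lp x).O t) :
    Ad (dg h P).p (mk h x x) (fun l => α (t l) - β (t l)) fun l => α (t l) := by
  have h1 := coI_mk h ht ht
  have h2 : ∀ l, α (t l) ∈ (lp (mk h x x)).O := fun l => α_mem_mk h (ht.mem l)
  have h3 : ∀ l, β (t l) ∈ (lp (mk h x x)).O := fun l => β_mem_mk h (ht.mem l)
  refine ad_of (z := x) (dg_map h x ▸ lh_map (dg h P) x) ⟨fun l => ?_, fun a ha => ?_, ?_⟩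
    (fun l => ?_) ?_
  · rcases l with l | l
    · exact van_iff_v.2 ⟨sub_mem (h2 l) (h3 l), by
        rw [Sum.elim_inl, LP.v_sub (h2 l) (h3 l)]
        exact sub_eq_zero.2 ((h1.v_eq (Sum.inl l)).trans (h1.v_eq (Sum.inr l)).symm)⟩
    · exact h1.van (Sum.inl l)
  · refine (h1.gen a ha).trans fun l => ?_
    rcases l with l | l
    · exact InI.self (s := Sum.elim _ fun l => α (t l)) (Sum.inr l)
    · simpa using (InI.self (O := (lp (mk h x x)).O) (s := Sum.elim (fun l => α (t l) - β (t l))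
        fun l => α (t l)) (Sum.inr l)).sub (InI.self (Sum.inl l))
  · obtain ⟨δ, h4, h5⟩ := h1.der
    refine ⟨Sum.elim (fun l => -δ (Sum.inr l)) fun l => δ (Sum.inl l) + δ (Sum.inr l),
      fun l a ha => ?_, fun l k => ?_⟩
    · rcases l with l | l
      exacts [neg_mem (h4 _ a ha), add_mem (h4 _ a ha) (h4 _ a ha)]
    · have h6 : ∀ l k, δ l (α (t k)) = if l = Sum.inl k then 1 else 0 := fun l k => h5 l (Sum.inl k)
      have h7 : ∀ l k, δ l (β (t k)) = if l = Sum.inr k then 1 else 0 := fun l k => h5 l (Sum.inr k)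
      rcases l with l | l <;> rcases k with k | k <;> simp [h6, h7]
  · rw [Plc.π_sub (dg_α h _).1 (dg_β h _).1, (dg_α h _).2, (dg_β h _).2, sub_self]
  · simp only [(dg_α h _).2]
    exact ⟨ht.mem, by simpa using ht.der⟩

end Dia

end Crest.Agent.X262.Dbl58
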